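import Vale.Agent.P042.R2.H757.Spec
import Mathlib.NumberTheory.Harmonic.Bounds

set_option autoImplicit false

/-!
P042.MultiplicativeStatistics, row MER (helper74).
-/

namespace Vale.Agent.P042.H757

open Finset

theorem sum_block74 (j : ℕ) (hj : 1 ≤ j) :
    ∑ p ∈ (Ioc (2 ^ j) (2 ^ (j + 1))).filter Nat.Prime, (1 : ℝ) / p ≤ 4 / j := by
  have hj0 : (0 : ℝ) < j := by exact_mod_cast hj
  have hl : 0 < Real.log 2 := Real.log_pos (by norm_num)
  have hc : (0 : ℝ) < 2 ^ j * (j * Real.log 2) := by positivity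
  have h1 : ∑ p ∈ (Ioc (2 ^ j) (2 ^ (j + 1))).filter Nat.Prime, (1 : ℝ) / p ≤
      ∑ p ∈ (Ioc (2 ^ j) (2 ^ (j + 1))).filter Nat.Prime,
        Real.log p / (2 ^ j * (j * Real.log 2)) := by
    apply sum_le_sum
    intro p hp
    rw [mem_filter, mem_Ioc] at hp
    have hp1 : (2 : ℝ) ^ j ≤ p := by exact_mod_cast hp.1.1.le
    have hp0 : (0 : ℝ) < p := by
      have : (0 : ℝ) < 2 ^ j := by positivity
      linarith
    have h2 : j * Real.log 2 ≤ Real.log p := by
      rw [← Real.log_pow]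
      exact Real.log_le_log (by positivity) hp1
    rw [div_le_div_iff₀ hp0 hc, one_mul]
    have h3 : (0 : ℝ) ≤ j * Real.log 2 := by positivity
    calc (2 : ℝ) ^ j * (j * Real.log 2) ≤ p * Real.log p :=
          mul_le_mul hp1 h2 h3 hp0.le
      _ = Real.log p * p := mul_comm _ _
  refine h1.trans ?_
  rw [← sum_div]
  have h4 : ∑ p ∈ (Ioc (2 ^ j) (2 ^ (j + 1))).filter Nat.Prime, Real.log p ≤
      Chebyshev.theta ((2 : ℝ) ^ (j + 1)) := by
    rw [Chebyshev.theta_eq_sum_Icc]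
    apply sum_le_sum_of_subset_of_nonneg
    · intro p hp
      rw [mem_filter, mem_Ioc] at hp
      rw [mem_filter, mem_Icc]
      refine ⟨⟨Nat.zero_le _, ?_⟩, hp.2⟩
      rw [Nat.le_floor_iff (by positivity)]
      exact_mod_cast hp.1.2
    · intro p hp _
      rw [mem_filter] at hp
      exact Real.log_nonneg (by exact_mod_cast hp.2.one_lt.le)
  have h5 : Chebyshev.theta ((2 : ℝ) ^ (j + 1)) ≤ Real.log 4 * 2 ^ (j + 1) :=
    Chebyshev.theta_le_log4_mul_x (by positivity)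
  have h6 : Real.log 4 = 2 * Real.log 2 := by
    rw [show (4 : ℝ) = 2 ^ 2 by norm_num, Real.log_pow]
    norm_num
  rw [div_le_div_iff₀ hc hj0]
  calc (∑ p ∈ (Ioc (2 ^ j) (2 ^ (j + 1))).filter Nat.Prime, Real.log p) * j
      ≤ (Real.log 4 * 2 ^ (j + 1)) * j := by
        apply mul_le_mul_of_nonneg_right (h4.trans h5) hj0.le
    _ = 4 * (2 ^ j * (j * Real.log 2)) := by rw [h6, pow_succ]; ring

theorem sum_pow74 (J : ℕ) :
    ∑ p ∈ (Icc 1 (2 ^ (J + 1))).filter Nat.Prime, (1 : ℝ) / p ≤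
      1 / 2 + 4 * ((harmonic J : ℚ) : ℝ) := by
  induction J with
  | zero =>
    have : (Icc 1 (2 ^ (0 + 1))).filter Nat.Prime = {2} := by decide
    rw [this]
    simp
  | succ J ih =>
    have h1 : (Icc 1 (2 ^ (J + 1 + 1))).filter Nat.Prime ⊆
        (Icc 1 (2 ^ (J + 1))).filter Nat.Prime ∪
          (Ioc (2 ^ (J + 1)) (2 ^ (J + 1 + 1))).filter Nat.Prime := by
      intro p hp
      rw [mem_filter, mem_Icc] at hp
      rw [mem_union, mem_filter, mem_filter, mem_Icc, mem_Ioc]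
      by_cases h : p ≤ 2 ^ (J + 1)
      · exact Or.inl ⟨⟨hp.1.1, h⟩, hp.2⟩
      · exact Or.inr ⟨⟨by omega, hp.1.2⟩, hp.2⟩
    have h2 := sum_block74 (J + 1) (by omega)
    calc ∑ p ∈ (Icc 1 (2 ^ (J + 1 + 1))).filter Nat.Prime, (1 : ℝ) / p
        ≤ ∑ p ∈ (Icc 1 (2 ^ (J + 1))).filter Nat.Prime ∪
          (Ioc (2 ^ (J + 1)) (2 ^ (J + 1 + 1))).filter Nat.Prime, (1 : ℝ) / p := by
          apply sum_le_sum_of_subset_of_nonneg h1
          intro p _ _
          positivity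
      _ ≤ ∑ p ∈ (Icc 1 (2 ^ (J + 1))).filter Nat.Prime, (1 : ℝ) / p +
          ∑ p ∈ (Ioc (2 ^ (J + 1)) (2 ^ (J + 1 + 1))).filter Nat.Prime, (1 : ℝ) / p := by
          rw [← sum_union_inter]
          have : 0 ≤ ∑ p ∈ (Icc 1 (2 ^ (J + 1))).filter Nat.Prime ∩
            (Ioc (2 ^ (J + 1)) (2 ^ (J + 1 + 1))).filter Nat.Prime, (1 : ℝ) / p := by
            apply sum_nonneg
            intro p _
            positivity
          linarith
      _ ≤ (1 / 2 + 4 * ((harmonic J : ℚ) : ℝ)) + 4 / ((J + 1 : ℕ) : ℝ) := add_le_add ih h2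
      _ = 1 / 2 + 4 * ((harmonic (J + 1) : ℚ) : ℝ) := by
          rw [harmonic_succ]
          push_cast
          ring

theorem rowMer : StMer := by
  refine ⟨8, by norm_num, ?_⟩
  intro N hN
  have hN3 : (3 : ℝ) ≤ N := by exact_mod_cast hN
  have hN0 : (0 : ℝ) < N := by linarith
  have hl : 0 < Real.log 2 := Real.log_pos (by norm_num)
  obtain ⟨J, hJ⟩ : ∃ J : ℕ, J = Nat.log 2 N := ⟨_, rfl⟩
  have hJ1 : 1 ≤ J := by
    rw [hJ]
    exact Nat.log_pos (by norm_num) (by omega)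
  have hJ0 : (0 : ℝ) < J := by exact_mod_cast hJ1
  have hup : N ≤ 2 ^ (J + 1) := by
    rw [hJ]
    exact (Nat.lt_pow_succ_log_self (by norm_num) N).le
  have hlo : 2 ^ J ≤ N := by
    rw [hJ]
    exact Nat.pow_log_le_self 2 (by omega)
  have h1 : ∑ p ∈ (Icc 1 N).filter Nat.Prime, (1 : ℝ) / p ≤
      ∑ p ∈ (Icc 1 (2 ^ (J + 1))).filter Nat.Prime, (1 : ℝ) / p := by
    apply sum_le_sum_of_subset_of_nonneg
    · exact filter_subset_filter _ (Icc_subset_Icc_right hup)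
    · intro p _ _
      positivity
  have h2 := sum_pow74 J
  have h3 : ((harmonic J : ℚ) : ℝ) ≤ 1 + Real.log J := harmonic_le_one_add_log J
  have h4 : J * Real.log 2 ≤ Real.log N := by
    rw [← Real.log_pow]
    apply Real.log_le_log (by positivity)
    exact_mod_cast hlo
  have h5 : (J : ℝ) ≤ 2 * Real.log N := by
    have := Real.log_two_gt_d9
    have h6 : (0 : ℝ) ≤ J := hJ0.le
    nlinarith
  have hlogN : 1 ≤ Real.log N := by
    rw [Real.le_log_iff_exp_le hN0]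
    have := Real.exp_one_lt_d9
    linarith
  have h6 : Real.log J ≤ Real.log 2 + Real.log (Real.log N) := by
    rw [← Real.log_mul (by norm_num) (by linarith)]
    exact Real.log_le_log hJ0 h5
  have h7 : 0 ≤ Real.log (Real.log N) := Real.log_nonneg hlogN
  have h8 := Real.log_two_lt_d9
  linarith

end Vale.Agent.P042.H757
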