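import Vale.Agent.P042.R2.H757.Spec

set_option autoImplicit false

/-!
P042.MultiplicativeStatistics, row NUM (helper74).
-/

namespace Vale.Agent.P042.H757

open Finset

theorem rowNum : StNum := by
  intro k hk K ε hK hε
  have hk' : (2 : ℝ) ≤ k := by exact_mod_cast hk
  obtain ⟨a, ha⟩ : ∃ a : ℝ, a = (2 * k + 1 : ℝ) / (2 * k + 2) := ⟨_, rfl⟩
  have ha0 : 0 < a := by rw [ha]; positivity
  have ha1 : a < 1 := by
    rw [ha, div_lt_one (by positivity)]
    linarith
  obtain ⟨s, hs⟩ : ∃ s : ℝ, s = (1 - a) / 2 := ⟨_, rfl⟩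
  have hs0 : 0 < s := by rw [hs]; linarith
  obtain ⟨b, hb⟩ : ∃ b : ℝ, b = a + s := ⟨_, rfl⟩
  have hb1 : b < 1 := by rw [hb, hs]; linarith
  have hb0 : 0 < b := by rw [hb]; positivity
  obtain ⟨K', hK'⟩ : ∃ K' : ℝ, K' = 6 * K * (1 + 1 / s) := ⟨_, rfl⟩
  have hK'0 : 0 < K' := by rw [hK']; positivity
  obtain ⟨x0, hx0⟩ : ∃ x0 : ℝ, x0 = (K' / ε) ^ (1 / (1 - b)) := ⟨_, rfl⟩
  have hx00 : 0 < x0 := by rw [hx0]; positivity
  refine ⟨Real.exp (K' * x0 ^ b), Real.exp_pos _, ?_⟩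
  intro N hN
  have hN3 : (3 : ℝ) ≤ N := by exact_mod_cast hN
  have hN0 : (0 : ℝ) < N := by linarith
  obtain ⟨x, hx⟩ : ∃ x : ℝ, x = Real.log N := ⟨_, rfl⟩
  have hx1 : 1 ≤ x := by
    rw [hx, Real.le_log_iff_exp_le hN0]
    have := Real.exp_one_lt_d9
    linarith
  have hxpos : 0 < x := by linarith
  rw [← hx, ← ha]
  -- the first bound
  have h1 : (x ^ a + 5) * (1 + Real.log x) ≤ 6 * (1 + 1 / s) * x ^ b := by
    have e1 : (1 : ℝ) ≤ x ^ a := Real.one_le_rpow hx1 ha0.le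
    have e2 : (1 : ℝ) ≤ x ^ s := Real.one_le_rpow hx1 hs0.le
    have e3 : Real.log x ≤ x ^ s / s := Real.log_le_rpow_div hxpos.le hs0
    have e4 : 0 ≤ Real.log x := Real.log_nonneg hx1
    have e5 : x ^ b = x ^ a * x ^ s := by rw [hb, Real.rpow_add hxpos]
    have e6 : 1 + Real.log x ≤ (1 + 1 / s) * x ^ s := by
      have : (1 + 1 / s) * x ^ s = x ^ s + x ^ s / s := by ring
      rw [this]; linarith
    calc (x ^ a + 5) * (1 + Real.log x) ≤ (6 * x ^ a) * ((1 + 1 / s) * x ^ s) := by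
          apply mul_le_mul (by linarith) e6 (by linarith) (by positivity)
      _ = 6 * (1 + 1 / s) * x ^ b := by rw [e5]; ring
  have h2 : K' * x ^ b ≤ ε * x + K' * x0 ^ b := by
    rcases le_total x x0 with h | h
    · have : x ^ b ≤ x0 ^ b := Real.rpow_le_rpow hxpos.le h hb0.le
      have h3 : K' * x ^ b ≤ K' * x0 ^ b := mul_le_mul_of_nonneg_left this hK'0.le
      have : 0 ≤ ε * x := by positivity
      linarith
    · have h3 : x = x ^ b * x ^ (1 - b) := by
        rw [← Real.rpow_add hxpos]; simp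
      have h4 : K' / ε ≤ x ^ (1 - b) := by
        have h5 : x0 ^ (1 - b) = K' / ε := by
          rw [hx0, ← Real.rpow_mul (by positivity), one_div_mul_cancel (by linarith), Real.rpow_one]
        rw [← h5]
        exact Real.rpow_le_rpow hx00.le h (by linarith)
      have h6 : K' ≤ ε * x ^ (1 - b) := by
        rw [div_le_iff₀ hε] at h4
        linarith
      have h7 : K' * x ^ b ≤ ε * x := by
        calc K' * x ^ b ≤ (ε * x ^ (1 - b)) * x ^ b :=
              mul_le_mul_of_nonneg_right h6 (by positivity)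
          _ = ε * (x ^ b * x ^ (1 - b)) := by ring
          _ = ε * x := by rw [← h3]
      have : 0 ≤ K' * x0 ^ b := by positivity
      linarith
  have h3 : (N : ℝ) ^ ε = Real.exp (ε * x) := by
    rw [Real.rpow_def_of_pos hN0, ← hx, mul_comm]
  rw [h3, ← Real.exp_add]
  apply Real.exp_le_exp.mpr
  calc K * (x ^ a + 5) * (1 + Real.log x) = K * ((x ^ a + 5) * (1 + Real.log x)) := by ring
    _ ≤ K * (6 * (1 + 1 / s) * x ^ b) := mul_le_mul_of_nonneg_left h1 hK.le
    _ = K' * x ^ b := by rw [hK']; ring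
    _ ≤ K' * x0 ^ b + ε * x := by linarith

end Vale.Agent.P042.H757
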